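import Mathlib

/-!
P297: the fields in the statement on numerical Godeaux surfaces exist: common part.
-/

open MvPolynomial IntermediateField

noncomputable section

namespace Vale.Agent.P297.H2.Ex

/-- the algebraic closure of `ℂ(X₀, X₁)` -/
abbrev Om : Type := AlgebraicClosure (FractionRing (MvPolynomial (Fin 2) ℂ))

/-- the embedding of the polynomial ring -/
def inc : MvPolynomial (Fin 2) ℂ →ₐ[ℂ] Om :=
  IsScalarTower.toAlgHom ℂ (MvPolynomial (Fin 2) ℂ) Om

theorem inc_injective : Function.Injective inc := by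
  change Function.Injective (algebraMap (MvPolynomial (Fin 2) ℂ) Om)
  rw [IsScalarTower.algebraMap_eq (MvPolynomial (Fin 2) ℂ)
    (FractionRing (MvPolynomial (Fin 2) ℂ)) Om]
  exact (algebraMap (FractionRing (MvPolynomial (Fin 2) ℂ)) Om).injective.comp
    (IsFractionRing.injective _ _)

/-- the two variables -/
def a0 : Om := inc (X 0)

/-- the two variables -/
def a1 : Om := inc (X 1)

theorem indep : AlgebraicIndependent ℂ ![a0, a1] := by
  have h := (AlgHom.algebraicIndependent_iff (R := ℂ) (x := (X : Fin 2 → MvPolynomial (Fin 2) ℂ))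
    inc inc_injective).2 (MvPolynomial.algebraicIndependent_X (Fin 2) ℂ)
  have e : (inc ∘ (X : Fin 2 → MvPolynomial (Fin 2) ℂ)) = ![a0, a1] := by
    funext i
    fin_cases i <;> rfl
  rwa [e] at h

theorem inc_eq (P : MvPolynomial (Fin 2) ℂ) : inc P = aeval ![a0, a1] P := by
  have e : (inc : MvPolynomial (Fin 2) ℂ →ₐ[ℂ] Om) = aeval ![a0, a1] := by
    apply MvPolynomial.algHom_ext
    intro i
    rw [aeval_X]
    fin_cases i <;> rfl
  rw [e]

/-- a polynomial expression in the two variables is not zero if it is not zero at a point -/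
theorem ne_of_eval (P : MvPolynomial (Fin 2) ℂ) (v : Fin 2 → ℂ) (h : eval v P ≠ 0) :
    aeval ![a0, a1] P ≠ 0 := by
  rw [← inc_eq]
  intro h0
  apply h
  rw [inc_injective (h0.trans (map_zero inc).symm), map_zero]

/-- the field generated by a set is generated by the same set -/
theorem adjoin_top {W : Type} [Field W] [Algebra ℂ W] (S : Set W) :
    adjoin ℂ ((Subtype.val : adjoin ℂ S → W) ⁻¹' S) = ⊤ := by
  apply IntermediateField.lift_injective
  rw [IntermediateField.lift_adjoin, IntermediateField.lift_top]
  congr 1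
  ext z
  constructor
  · rintro ⟨w, hw, rfl⟩
    exact hw
  · intro hz
    exact ⟨⟨z, subset_adjoin ℂ S hz⟩, hz, rfl⟩

end Vale.Agent.P297.H2.Ex
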