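import Vale.Agent.P297.H2.Ex.Base

/-!
P297: the fields in the statement on numerical Godeaux surfaces with torsion `ℤ/4` exist.
-/

open IntermediateField

noncomputable section

namespace Vale.Agent.P297.H2.Ex

/-- a root of a quartic -/
theorem quartic {W : Type} [Field W] [IsAlgClosed W] (c4 c3 c2 c1 c0 : W) (h : c4 ≠ 0) :
    ∃ x : W, c4 * x ^ 4 + c3 * x ^ 3 + c2 * x ^ 2 + c1 * x + c0 = 0 := by
  obtain ⟨x, hx⟩ := IsAlgClosed.exists_root
    (Polynomial.C c4 * Polynomial.X ^ 4 + Polynomial.C c3 * Polynomial.X ^ 3 +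
      Polynomial.C c2 * Polynomial.X ^ 2 + Polynomial.C c1 * Polynomial.X + Polynomial.C c0) (by
      intro h0
      have h1 := Polynomial.degree_eq_iff_natDegree_eq_of_pos
        (p := Polynomial.C c4 * Polynomial.X ^ 4 + Polynomial.C c3 * Polynomial.X ^ 3 +
      Polynomial.C c2 * Polynomial.X ^ 2 + Polynomial.C c1 * Polynomial.X + Polynomial.C c0)
        (n := 4) (by norm_num)
      have h2 : (Polynomial.C c4 * Polynomial.X ^ 4 + Polynomial.C c3 * Polynomial.X ^ 3 +
      Polynomial.C c2 * Polynomial.X ^ 2 + Polynomial.C c1 * Polynomial.X +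
        Polynomial.C c0).natDegree = 4 := by compute_degree!
      rw [h1.2 h2] at h0
      norm_num at h0)
  refine ⟨x, ?_⟩
  simpa [Polynomial.IsRoot] using hx

/-- the equations of the surfaces with `ℤ/4`-torsion -/
def E4 {K : Type} [Field K] (m : Fin 11 → K) (u w p q : K) : Prop :=
  p * q + (m 0 * u / w + m 1 / u + m 2 * u * w + m 3 * u + m 4) = 0 ∧
    w * p ^ 2 + q ^ 2 + m 9 * w * p + m 10 * q +
      (m 5 + m 6 * w + (m 7 + m 8 * w) * u) = 0

theorem E4_of {K W : Type} [Field K] [Algebra ℂ K] [Field W] [Algebra ℂ W] (f : K →ₐ[ℂ] W)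
    (m : Fin 11 → ℂ) (u w p q : K)
    (h : E4 (fun i => algebraMap ℂ W (m i)) (f u) (f w) (f p) (f q)) :
    E4 (fun i => algebraMap ℂ K (m i)) u w p q := by
  obtain ⟨h1, h2⟩ := h
  constructor
  · apply f.toRingHom.injective
    simpa using h1
  · apply f.toRingHom.injective
    simpa using h2

theorem four (m : Fin 11 → ℂ) (hm : m 2 ≠ 0) :
    ∃ (K : Type) (_ : Field K) (_ : Algebra ℂ K) (u w p q : K),
      AlgebraicIndependent ℂ ![u, w] ∧ IntermediateField.adjoin ℂ {u, w, p, q} = ⊤ ∧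
        E4 (fun i => algebraMap ℂ K (m i)) u w p q := by
  set u : Om := a0 with hu
  set w : Om := a1 with hw
  have hu0 : u ≠ 0 := by
    have := ne_of_eval (MvPolynomial.X 0) 1 (by simp)
    simpa using this
  have hw0 : w ≠ 0 := by
    have := ne_of_eval (MvPolynomial.X 1) 1 (by simp)
    simpa using this
  set M : Fin 11 → Om := fun i => algebraMap ℂ Om (m i) with hM
  set G : Om := M 0 * u / w + M 1 / u + M 2 * u * w + M 3 * u + M 4 with hG
  have hG0 : G ≠ 0 := by
    intro h0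
    have h1 : ∀ v : Fin 2 → ℂ, MvPolynomial.eval v
        (MvPolynomial.C (m 0) * MvPolynomial.X 0 ^ 2 + MvPolynomial.C (m 1) * MvPolynomial.X 1 +
          MvPolynomial.C (m 2) * MvPolynomial.X 0 ^ 2 * MvPolynomial.X 1 ^ 2 +
          MvPolynomial.C (m 3) * MvPolynomial.X 0 ^ 2 * MvPolynomial.X 1 +
          MvPolynomial.C (m 4) * MvPolynomial.X 0 * MvPolynomial.X 1) = 0 := by
      intro v
      by_contra h
      have h2 := ne_of_eval _ v h
      apply h2
      have h3 : G * (u * w) = 0 := by rw [h0, zero_mul]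
      rw [← h3, hG]
      simp only [map_add, map_mul, map_pow, MvPolynomial.aeval_X, MvPolynomial.aeval_C,
        Matrix.cons_val_zero, Matrix.cons_val_one, ← hu, ← hw]
      change M 0 * u ^ 2 + M 1 * w + M 2 * u ^ 2 * w ^ 2 + M 3 * u ^ 2 * w + M 4 * u * w = _
      field_simp
    have e1 := h1 ![1, 1]
    have e2 := h1 ![1, -1]
    have e3 := h1 ![1, 0]
    simp at e1 e2 e3
    apply hm
    linear_combination (1 / 2 : ℂ) * e1 + (1 / 2 : ℂ) * e2 - e3
  set H : Om := M 5 + M 6 * w + (M 7 + M 8 * w) * u with hH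
  obtain ⟨p, hp⟩ := quartic w (M 9 * w) H (-(M 10 * G)) (G ^ 2) hw0
  have hp0 : p ≠ 0 := by
    rintro rfl
    apply pow_ne_zero 2 hG0
    simpa using hp
  have hE : E4 M u w p (-G / p) := by
    constructor
    · rw [← hG]
      field_simp
      ring
    · rw [← hH]
      have : w * p ^ 2 + (-G / p) ^ 2 + M 9 * w * p + M 10 * (-G / p) + H =
        (w * p ^ 4 + M 9 * w * p ^ 3 + H * p ^ 2 + -(M 10 * G) * p + G ^ 2) / p ^ 2 := by
        field_simp
        ring
      rw [this, hp, zero_div]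
  set q : Om := -G / p
  let S : Set Om := {u, w, p, q}
  refine ⟨adjoin ℂ S, inferInstance, inferInstance,
    ⟨u, subset_adjoin ℂ S (by simp [S])⟩, ⟨w, subset_adjoin ℂ S (by simp [S])⟩,
    ⟨p, subset_adjoin ℂ S (by simp [S])⟩, ⟨q, subset_adjoin ℂ S (by simp [S])⟩, ?_, ?_, ?_⟩
  · refine (AlgHom.algebraicIndependent_iff (adjoin ℂ S).val (RingHom.injective _)).1 ?_
    have e := indep
    rw [← hu, ← hw] at e
    convert e using 1
    funext i
    fin_cases i <;> rfl
  · rw [← adjoin_top S]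
    congr 1
    ext z
    simp [S, Subtype.ext_iff]
  · exact E4_of (adjoin ℂ S).val m _ _ _ _ hE

end Vale.Agent.P297.H2.Ex
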