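import Vale.Agent.P297.H2.Ex.Four

/-!
P297: the fields in the statement on numerical Godeaux surfaces with torsion `ℤ/3` exist.
-/

open IntermediateField

noncomputable section

namespace Vale.Agent.P297.H2.Ex

/-- the equations of the surfaces with `ℤ/3`-torsion -/
def E3 {K : Type} [Field K] (z t : Fin 4 → K) (s u v w : K) : Prop :=
  (1 + w) * (w * (3 * v ^ 2 - z 2 * v - z 0) + (3 * u ^ 2 - z 3 * u - z 1)) =
      3 * w * (s ^ 2 + u ^ 2 + v ^ 2 + s * u + s * v - u * v + 3 * s) ∧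
    (1 + w) * (w * (v ^ 3 - t 2 * v - t 0) + (u ^ 3 - t 3 * u - t 1)) =
      w * (u + v - s) * (s ^ 2 + u ^ 2 + v ^ 2 + s * u + s * v - u * v + 3 * s)

theorem E3_of {K W : Type} [Field K] [Algebra ℂ K] [Field W] [Algebra ℂ W] (f : K →ₐ[ℂ] W)
    (z t : Fin 4 → ℂ) (s u v w : K)
    (h : E3 (fun i => algebraMap ℂ W (z i)) (fun i => algebraMap ℂ W (t i))
      (f s) (f u) (f v) (f w)) :
    E3 (fun i => algebraMap ℂ K (z i)) (fun i => algebraMap ℂ K (t i)) s u v w := by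
  obtain ⟨h1, h2⟩ := h
  have f3 : f 3 = 3 := map_ofNat f 3
  constructor
  · apply f.toRingHom.injective
    simpa [f3] using h1
  · apply f.toRingHom.injective
    simpa [f3] using h2

theorem trdeg_Om : Algebra.trdeg ℂ Om = 2 := by
  have h0 : Algebra.IsAlgebraic (MvPolynomial (Fin 2) ℂ) Om :=
    (IsFractionRing.comap_isAlgebraic_iff (A := MvPolynomial (Fin 2) ℂ)
      (K := FractionRing (MvPolynomial (Fin 2) ℂ)) (C := Om)).2 inferInstance
  have hf : FaithfulSMul (MvPolynomial (Fin 2) ℂ) Om :=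
    (faithfulSMul_iff_algebraMap_injective _ _).2 inc_injective
  have h1 : IsTranscendenceBasis ℂ
      (algebraMap (MvPolynomial (Fin 2) ℂ) Om ∘ (MvPolynomial.X : Fin 2 → _)) :=
    (IsTranscendenceBasis.mvPolynomial (Fin 2) ℂ).algebraMap_comp
  have h2 := h1.cardinalMk_eq_trdeg
  rw [← h2]
  simp

theorem trdeg_of (K : IntermediateField ℂ Om) (x y : K)
    (h : AlgebraicIndependent ℂ ![(x : Om), (y : Om)]) : Algebra.trdeg ℂ K = 2 := by
  apply le_antisymm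
  · rw [← trdeg_Om]
    exact trdeg_le_of_injective K.val (RingHom.injective _)
  · have h1 : AlgebraicIndependent ℂ ![x, y] := by
      refine (AlgHom.algebraicIndependent_iff K.val (RingHom.injective _)).1 ?_
      convert h using 1
      funext i
      fin_cases i <;> rfl
    have h2 := h1.cardinalMk_le_trdeg
    simpa using h2

theorem three (z t : Fin 4 → ℂ) :
    ∃ (K : Type) (_ : Field K) (_ : Algebra ℂ K) (s u v w : K), Algebra.trdeg ℂ K = 2 ∧
      IntermediateField.adjoin ℂ {s, u, v, w} = ⊤ ∧ w ≠ -1 ∧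
        E3 (fun i => algebraMap ℂ K (z i)) (fun i => algebraMap ℂ K (t i)) s u v w := by
  set u : Om := a0 with hu
  set v : Om := a1 with hv
  set Z : Fin 4 → Om := fun i => algebraMap ℂ Om (z i) with hZ
  set T : Fin 4 → Om := fun i => algebraMap ℂ Om (t i) with hT
  set Pu : MvPolynomial (Fin 2) ℂ := MvPolynomial.X 0 with hPu
  set Pv : MvPolynomial (Fin 2) ℂ := MvPolynomial.X 1 with hPv
  have ev : ∀ P : MvPolynomial (Fin 2) ℂ, MvPolynomial.aeval ![u, v] P = 0 →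
      ∀ v, MvPolynomial.eval v P = 0 := by
    intro P hP v
    by_contra h
    exact ne_of_eval P v h hP
  have au : MvPolynomial.aeval ![u, v] Pu = u := by simp [hPu]
  have av : MvPolynomial.aeval ![u, v] Pv = v := by simp [hPv]
  have aZ : ∀ i, MvPolynomial.aeval ![u, v] (MvPolynomial.C (z i) : MvPolynomial (Fin 2) ℂ) =
      Z i := fun i => by rw [MvPolynomial.aeval_C]
  have aT : ∀ i, MvPolynomial.aeval ![u, v] (MvPolynomial.C (t i) : MvPolynomial (Fin 2) ℂ) =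
      T i := fun i => by rw [MvPolynomial.aeval_C]
  obtain ⟨α, hα⟩ : ∃ α, α = 3 * v ^ 2 - Z 2 * v - Z 0 := ⟨_, rfl⟩
  obtain ⟨β, hβ⟩ : ∃ β, β = 3 * u ^ 2 - Z 3 * u - Z 1 := ⟨_, rfl⟩
  obtain ⟨γ, hγ⟩ : ∃ γ, γ = v ^ 3 - T 2 * v - T 0 := ⟨_, rfl⟩
  obtain ⟨δ, hδ⟩ : ∃ δ, δ = u ^ 3 - T 3 * u - T 1 := ⟨_, rfl⟩
  set Pα : MvPolynomial (Fin 2) ℂ :=
    3 * Pv ^ 2 - MvPolynomial.C (z 2) * Pv - MvPolynomial.C (z 0) with hPα
  set Pβ : MvPolynomial (Fin 2) ℂ :=
    3 * Pu ^ 2 - MvPolynomial.C (z 3) * Pu - MvPolynomial.C (z 1) with hPβ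
  set Pγ : MvPolynomial (Fin 2) ℂ :=
    Pv ^ 3 - MvPolynomial.C (t 2) * Pv - MvPolynomial.C (t 0) with hPγ
  set Pδ : MvPolynomial (Fin 2) ℂ :=
    Pu ^ 3 - MvPolynomial.C (t 3) * Pu - MvPolynomial.C (t 1) with hPδ
  have aα : MvPolynomial.aeval ![u, v] Pα = α := by
    rw [hPα, hα]; simp only [map_sub, map_mul, map_pow, map_ofNat, av, aZ]
  have aβ : MvPolynomial.aeval ![u, v] Pβ = β := by
    rw [hPβ, hβ]; simp only [map_sub, map_mul, map_pow, map_ofNat, au, aZ]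
  have aγ : MvPolynomial.aeval ![u, v] Pγ = γ := by
    rw [hPγ, hγ]; simp only [map_sub, map_mul, map_pow, av, aT]
  have aδ : MvPolynomial.aeval ![u, v] Pδ = δ := by
    rw [hPδ, hδ]; simp only [map_sub, map_mul, map_pow, au, aT]
  have hα0 : α ≠ 0 := by
    intro h
    have h1 := ev Pα (by rw [aα, h])
    have e0 := h1 ![0, 0]
    have e1 := h1 ![0, 1]
    have e2 := h1 ![0, -1]
    simp [hPα, hPv] at e0 e1 e2
    have : (6 : ℂ) = 0 := by linear_combination e1 + e2 + 2 * e0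
    norm_num at this
  have hβ0 : β ≠ 0 := by
    intro h
    have h1 := ev Pβ (by rw [aβ, h])
    have e0 := h1 ![0, 0]
    have e1 := h1 ![1, 0]
    have e2 := h1 ![-1, 0]
    simp [hPβ, hPu] at e0 e1 e2
    have : (6 : ℂ) = 0 := by linear_combination e1 + e2 + 2 * e0
    norm_num at this
  have hdet : α * δ - β * γ ≠ 0 := by
    intro h
    have h1 := ev (Pα * Pδ - Pβ * Pγ) (by rw [map_sub, map_mul, map_mul, aα, aβ, aγ, aδ, h])
    have c : ∀ x y : ℂ, (3 * y ^ 2 - z 2 * y - z 0) * (x ^ 3 - t 3 * x - t 1) -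
        (3 * x ^ 2 - z 3 * x - z 1) * (y ^ 3 - t 2 * y - t 0) = 0 := by
      intro x y
      have h2 := h1 ![x, y]
      simpa [hPα, hPβ, hPγ, hPδ, hPu, hPv] using h2
    have : (36 : ℂ) = 0 := by
      linear_combination c 3 1 - 3 * c 2 1 + 3 * c 1 1 - c 0 1 -
        2 * (c 3 0 - 3 * c 2 0 + 3 * c 1 0 - c 0 0) +
        (c 3 (-1) - 3 * c 2 (-1) + 3 * c 1 (-1) - c 0 (-1))
    norm_num at this
  have hN : (u ^ 2 + v ^ 2 + u * v + u + v) * (β - α) ^ 2 -
      3 * (u + v + 1) * (β - α) * (δ - γ) + 3 * (δ - γ) ^ 2 ≠ 0 := by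
    intro h
    have h1 := ev ((Pu ^ 2 + Pv ^ 2 + Pu * Pv + Pu + Pv) * (Pβ - Pα) ^ 2 -
      3 * (Pu + Pv + 1) * (Pβ - Pα) * (Pδ - Pγ) + 3 * (Pδ - Pγ) ^ 2) (by
        simp only [map_sub, map_add, map_mul, map_pow, map_ofNat, map_one, au, av, aα, aβ, aγ,
          aδ, h])
    have c : ∀ x : ℂ, (x ^ 2 + x) * ((3 * x ^ 2 - z 3 * x - z 1) - (-z 0)) ^ 2 -
        3 * (x + 1) * ((3 * x ^ 2 - z 3 * x - z 1) - (-z 0)) *
          ((x ^ 3 - t 3 * x - t 1) - (-t 0)) + 3 * ((x ^ 3 - t 3 * x - t 1) - (-t 0)) ^ 2 = 0 := by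
      intro x
      have h2 := h1 ![x, 0]
      simpa [hPα, hPβ, hPγ, hPδ, hPu, hPv] using h2
    have : (2160 : ℂ) = 0 := by
      linear_combination c 3 - 6 * c 2 + 15 * c 1 - 20 * c 0 + 15 * c (-1) - 6 * c (-2) + c (-3)
    norm_num at this
  obtain ⟨w, hw⟩ := quartic (α ^ 3)
    (α ^ 3 + 3 * α ^ 2 * β - 9 * ((u ^ 2 + v ^ 2 + u * v + u + v) * α ^ 2 -
      3 * (u + v + 1) * α * γ + 3 * γ ^ 2))
    (3 * α ^ 2 * β + 3 * α * β ^ 2 - 9 * (2 * (u ^ 2 + v ^ 2 + u * v + u + v) * α * β -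
      3 * (u + v + 1) * (α * δ + β * γ) + 6 * γ * δ))
    (3 * α * β ^ 2 + β ^ 3 - 9 * ((u ^ 2 + v ^ 2 + u * v + u + v) * β ^ 2 -
      3 * (u + v + 1) * β * δ + 3 * δ ^ 2))
    (β ^ 3) (pow_ne_zero 3 hα0)
  obtain ⟨a, ha⟩ : ∃ a, a = w * α + β := ⟨_, rfl⟩
  obtain ⟨b, hb⟩ : ∃ b, b = w * γ + δ := ⟨_, rfl⟩
  have hP : (1 + w) * a ^ 3 - 9 * w * ((u ^ 2 + v ^ 2 + u * v + u + v) * a ^ 2 -
      3 * (u + v + 1) * a * b + 3 * b ^ 2) = 0 := by
    rw [← hw, ha, hb]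
    ring
  have hw0 : w ≠ 0 := by
    rintro rfl
    apply pow_ne_zero 3 hβ0
    simpa using hw
  have hw1 : w ≠ -1 := by
    rintro rfl
    apply hN
    have : β - α = a := by rw [ha]; ring
    rw [this]
    have : δ - γ = b := by rw [hb]; ring
    rw [this]
    have h9 : (9 : Om) ≠ 0 := by norm_num
    have : 9 * ((u ^ 2 + v ^ 2 + u * v + u + v) * a ^ 2 -
      3 * (u + v + 1) * a * b + 3 * b ^ 2) = 0 := by
      rw [← hP]; ring
    exact (mul_eq_zero.1 this).resolve_left h9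
  have ha0 : a ≠ 0 := by
    intro h
    rw [h] at hP
    have h2 : 27 * w * b ^ 2 = 0 := by
      rw [← neg_eq_zero, ← hP]; ring
    have hb0 : b = 0 := by
      rcases mul_eq_zero.1 h2 with h3 | h3
      · rcases mul_eq_zero.1 h3 with h4 | h4
        · norm_num at h4
        · exact absurd h4 hw0
      · exact pow_eq_zero_iff two_ne_zero |>.1 h3
    apply hdet
    rw [h] at ha
    rw [hb0] at hb
    linear_combination (-α) * hb + γ * ha
  obtain ⟨s, hs⟩ : ∃ s, s = u + v - 3 * b / a := ⟨_, rfl⟩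
  have hE : E3 Z T s u v w := by
    have hQ : s ^ 2 + u ^ 2 + v ^ 2 + s * u + s * v - u * v + 3 * s =
        3 * ((u ^ 2 + v ^ 2 + u * v + u + v) * a ^ 2 -
      3 * (u + v + 1) * a * b + 3 * b ^ 2) / a ^ 2 := by
      rw [hs]
      field_simp
      ring
    have h3 : 3 * w * (s ^ 2 + u ^ 2 + v ^ 2 + s * u + s * v - u * v + 3 * s) = (1 + w) * a := by
      rw [hQ]
      have : 3 * w * (3 * ((u ^ 2 + v ^ 2 + u * v + u + v) * a ^ 2 -
      3 * (u + v + 1) * a * b + 3 * b ^ 2) / a ^ 2) = (1 + w) * a - ((1 + w) * a ^ 3 -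
        9 * w * ((u ^ 2 + v ^ 2 + u * v + u + v) * a ^ 2 -
      3 * (u + v + 1) * a * b + 3 * b ^ 2)) / a ^ 2 := by
        field_simp
        ring
      rw [this, hP, zero_div, sub_zero]
    constructor
    · rw [← hα, ← hβ, ← ha, h3]
    · rw [← hγ, ← hδ, ← hb]
      have h4 : w * (u + v - s) * (s ^ 2 + u ^ 2 + v ^ 2 + s * u + s * v - u * v + 3 * s) =
          (b / a) * (3 * w * (s ^ 2 + u ^ 2 + v ^ 2 + s * u + s * v - u * v + 3 * s)) := by
        have : u + v - s = 3 * (b / a) := by rw [hs]; ring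
        rw [this]
        ring
      rw [h4, h3]
      field_simp
  let S : Set Om := {s, u, v, w}
  refine ⟨adjoin ℂ S, inferInstance, inferInstance,
    ⟨s, subset_adjoin ℂ S (by simp [S])⟩, ⟨u, subset_adjoin ℂ S (by simp [S])⟩,
    ⟨v, subset_adjoin ℂ S (by simp [S])⟩, ⟨w, subset_adjoin ℂ S (by simp [S])⟩, ?_, ?_, ?_, ?_⟩
  · exact trdeg_of (adjoin ℂ S) ⟨u, subset_adjoin ℂ S (by simp [S])⟩
      ⟨v, subset_adjoin ℂ S (by simp [S])⟩ (by
        have e := indep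
        rwa [← hu, ← hv] at e)
  · rw [← adjoin_top S]
    congr 1
    ext z
    simp [S, Subtype.ext_iff]
  · intro h
    apply hw1
    have := congrArg (Subtype.val) h
    simpa using this
  · exact E3_of (adjoin ℂ S).val z t _ _ _ _ hE

end Vale.Agent.P297.H2.Ex
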