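import Vale.Agent.P297.H2.Ex.Four

/-!
P297: the fields in the statement on numerical Godeaux surfaces with torsion `ℤ/2` exist.
-/

open IntermediateField

noncomputable section

namespace Vale.Agent.P297.H2.Ex

/-- the equations of the surfaces with `ℤ/2`-torsion -/
def E2 {K : Type} [Field K] (p : Fin 9 → K) (x k y s t : K) : Prop :=
  x * (k ^ 2 * t - s) + (y + p 5) ^ 2 * t - (y + p 6) ^ 2 * s =
      (2 * y + p 3) * (y + p 5) + (2 * y + p 4) * k * (y + p 6) ∧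
    x * (s - k * t + (1 + p 0 / (y + p 5) + p 2 / (y + p 6)) * k - p 2 / (y + p 6) * k ^ 2 -
        p 0 / (y + p 5)) =
      p 8 - y ^ 2 + p 1 * y + p 2 / (y + p 6) * (y + p 5) ^ 2 +
        p 0 / (y + p 5) * (y + p 6) ^ 2 ∧
    x * ((s + 2 * (p 0 / (y + p 5)) * k) * (t - 2 * (p 2 / (y + p 6))) +
        (p 0 / (y + p 5) + p 2 / (y + p 6) * k) ^ 2) =
      p 7 - y ^ 2 + p 0 / (y + p 5) * (2 * y + p 4) * (y + p 6) +
        p 2 / (y + p 6) * (2 * y + p 3) * (y + p 5) -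
        (p 0 / (y + p 5) * (y + p 6) + p 2 / (y + p 6) * (y + p 5)) ^ 2

theorem E2_of {K W : Type} [Field K] [Algebra ℂ K] [Field W] [Algebra ℂ W] (f : K →ₐ[ℂ] W)
    (p : Fin 9 → ℂ) (x k y s t : K)
    (h : E2 (fun i => algebraMap ℂ W (p i)) (f x) (f k) (f y) (f s) (f t)) :
    E2 (fun i => algebraMap ℂ K (p i)) x k y s t := by
  obtain ⟨h1, h2, h3⟩ := h
  have f2 : f 2 = 2 := map_ofNat f 2
  refine ⟨?_, ?_, ?_⟩
  · apply f.toRingHom.injective
    simpa [f2] using h1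
  · apply f.toRingHom.injective
    simpa [f2] using h2
  · apply f.toRingHom.injective
    simpa [f2] using h3

section alg

variable {W : Type} [Field W] (k U V A B r f g e x : W)

/-- numerator of `t` -/
def nt : W := r * x + (f - e * x) * (x + V ^ 2)

/-- the denominator -/
def dd : W := x * (k ^ 2 - k) + (U ^ 2 - k * V ^ 2)

/-- numerator of `s` -/
def ns : W := k * nt V r f e x + (f - e * x) * dd k U V x

/-- the quartic -/
def P4 : W := (ns k U V r f e x + 2 * A * k * (x * dd k U V x)) *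
    (nt V r f e x - 2 * B * (x * dd k U V x)) +
  (A + B * k) ^ 2 * (x * dd k U V x) ^ 2 - g * x * dd k U V x ^ 2

theorem exists_root [IsAlgClosed W] (hk : k ≠ 0)
    (he : e = (1 + A + B) * k - B * k ^ 2 - A) :
    ∃ x, P4 k U V A B r f g e x = 0 := by
  obtain ⟨x, hx⟩ := quartic (k ^ 4)
    (((k * -e - e * (k ^ 2 - k)) + 2 * A * k * (k ^ 2 - k)) *
        ((r + f - e * V ^ 2) - 2 * B * (U ^ 2 - k * V ^ 2)) +
      ((k * (r + f - e * V ^ 2) + f * (k ^ 2 - k) - e * (U ^ 2 - k * V ^ 2)) +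
        2 * A * k * (U ^ 2 - k * V ^ 2)) * (-e - 2 * B * (k ^ 2 - k)) +
      2 * (A + B * k) ^ 2 * (k ^ 2 - k) * (U ^ 2 - k * V ^ 2) - g * (k ^ 2 - k) ^ 2)
    (((k * -e - e * (k ^ 2 - k)) + 2 * A * k * (k ^ 2 - k)) * (f * V ^ 2) +
      ((k * (r + f - e * V ^ 2) + f * (k ^ 2 - k) - e * (U ^ 2 - k * V ^ 2)) +
        2 * A * k * (U ^ 2 - k * V ^ 2)) *
        ((r + f - e * V ^ 2) - 2 * B * (U ^ 2 - k * V ^ 2)) +
      (k * (f * V ^ 2) + f * (U ^ 2 - k * V ^ 2)) * (-e - 2 * B * (k ^ 2 - k)) +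
      (A + B * k) ^ 2 * (U ^ 2 - k * V ^ 2) ^ 2 -
      2 * g * (k ^ 2 - k) * (U ^ 2 - k * V ^ 2))
    (((k * (r + f - e * V ^ 2) + f * (k ^ 2 - k) - e * (U ^ 2 - k * V ^ 2)) +
        2 * A * k * (U ^ 2 - k * V ^ 2)) * (f * V ^ 2) +
      (k * (f * V ^ 2) + f * (U ^ 2 - k * V ^ 2)) *
        ((r + f - e * V ^ 2) - 2 * B * (U ^ 2 - k * V ^ 2)) -
      g * (U ^ 2 - k * V ^ 2) ^ 2)
    (f ^ 2 * U ^ 2 * V ^ 2) (pow_ne_zero 4 hk)
  refine ⟨x, ?_⟩
  rw [← hx]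
  have h4 : k ^ 4 = ((k * -e - e * (k ^ 2 - k)) + 2 * A * k * (k ^ 2 - k)) *
      (-e - 2 * B * (k ^ 2 - k)) + (A + B * k) ^ 2 * (k ^ 2 - k) ^ 2 := by
    rw [he]; ring
  rw [h4, P4, ns, nt, dd]
  ring

theorem sol {y : W} (p : Fin 9 → W) (hx : x ≠ 0) (hd : dd k U V x ≠ 0)
    (hU : U = y + p 5) (hV : V = y + p 6) (hA : A = p 0 / (y + p 5)) (hB : B = p 2 / (y + p 6))
    (hr : r = (2 * y + p 3) * U + (2 * y + p 4) * k * V)
    (he : e = (1 + A + B) * k - B * k ^ 2 - A)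
    (hf : f = p 8 - y ^ 2 + p 1 * y + B * U ^ 2 + A * V ^ 2)
    (hg : g = p 7 - y ^ 2 + A * (2 * y + p 4) * V + B * (2 * y + p 3) * U -
      (A * V + B * U) ^ 2) (hP : P4 k U V A B r f g e x = 0) :
    E2 p x k y (ns k U V r f e x / (x * dd k U V x)) (nt V r f e x / (x * dd k U V x)) := by
  have hxd : x * dd k U V x ≠ 0 := mul_ne_zero hx hd
  have e1 : ns k U V r f e x = k * nt V r f e x + (f - e * x) * dd k U V x := rfl
  have e2 : nt V r f e x = r * x + (f - e * x) * (x + V ^ 2) := rfl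
  have e3 : dd k U V x = x * (k ^ 2 - k) + (U ^ 2 - k * V ^ 2) := rfl
  rw [P4] at hP
  generalize ns k U V r f e x = S at *
  generalize nt V r f e x = T at *
  generalize dd k U V x = D at *
  refine ⟨?_, ?_, ?_⟩
  · rw [← hU, ← hV, ← hr]
    have : x * (k ^ 2 * (T / (x * D)) - S / (x * D)) + U ^ 2 * (T / (x * D)) -
        V ^ 2 * (S / (x * D)) - r = 0 := by
      have : x * (k ^ 2 * (T / (x * D)) - S / (x * D)) + U ^ 2 * (T / (x * D)) -
        V ^ 2 * (S / (x * D)) - r =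
          ((x * k ^ 2 + U ^ 2) * T - (x + V ^ 2) * S - r * (x * D)) / (x * D) := by
        field_simp
        ring
      rw [this, e1, e2, e3]
      rw [div_eq_zero_iff]
      left
      ring
    exact sub_eq_zero.1 this
  · rw [← hA, ← hB, ← hU, ← hV, ← hf]
    have : S / (x * D) - k * (T / (x * D)) = (f - e * x) / x := by
      rw [e1]
      field_simp
      ring
    rw [this]
    have h2 : (f - e * x) / x + (1 + A + B) * k - B * k ^ 2 - A = f / x := by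
      rw [show (f - e * x) / x + (1 + A + B) * k - B * k ^ 2 - A = (f - e * x) / x + e by
        rw [he]; ring]
      field_simp
      ring
    rw [h2]
    field_simp
  · rw [← hA, ← hB, ← hU, ← hV, ← hg]
    have : x * ((S / (x * D) + 2 * A * k) * (T / (x * D) - 2 * B) + (A + B * k) ^ 2) - g =
        ((S + 2 * A * k * (x * D)) * (T - 2 * B * (x * D)) +
          (A + B * k) ^ 2 * (x * D) ^ 2 - g * x * D ^ 2) / (x * D ^ 2) := by
      field_simp
    rw [hP, zero_div] at this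
    exact sub_eq_zero.1 this

end alg

theorem exists_point (a b : ℂ) : ∃ z : ℂ, z + a ≠ 0 ∧ z + b ≠ 0 := by
  obtain ⟨z, hz⟩ := Infinite.exists_notMem_finset ({-a, -b} : Finset ℂ)
  simp only [Finset.mem_insert, Finset.mem_singleton, not_or] at hz
  exact ⟨z, fun h => hz.1 (eq_neg_of_add_eq_zero_left h),
    fun h => hz.2 (eq_neg_of_add_eq_zero_left h)⟩

theorem two (p : Fin 9 → ℂ) (h0 : p 0 ≠ 0) :
    ∃ (K : Type) (_ : Field K) (_ : Algebra ℂ K) (x k y s t : K),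
      AlgebraicIndependent ℂ ![y, k] ∧ IntermediateField.adjoin ℂ {x, k, y, s, t} = ⊤ ∧
        E2 (fun i => algebraMap ℂ K (p i)) x k y s t := by
  set y : Om := a0 with hy
  set k : Om := a1 with hk
  set M : Fin 9 → Om := fun i => algebraMap ℂ Om (p i) with hM
  set Y : MvPolynomial (Fin 2) ℂ := MvPolynomial.X 0 with hY
  set Z : MvPolynomial (Fin 2) ℂ := MvPolynomial.X 1 with hZ
  have ev : ∀ P : MvPolynomial (Fin 2) ℂ, MvPolynomial.aeval ![y, k] P = 0 →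
      ∀ v, MvPolynomial.eval v P = 0 := by
    intro P hP v
    by_contra h
    exact ne_of_eval P v h hP
  have aY : MvPolynomial.aeval ![y, k] Y = y := by simp [hY]
  have aZ : MvPolynomial.aeval ![y, k] Z = k := by simp [hZ]
  have aC : ∀ i, MvPolynomial.aeval ![y, k] (MvPolynomial.C (p i) : MvPolynomial (Fin 2) ℂ) =
      M i := fun i => by rw [MvPolynomial.aeval_C]
  have hk0 : k ≠ 0 := by
    intro h
    have := ev Z (by rw [aZ, h]) 1
    simp [hZ] at this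
  obtain ⟨U, hU⟩ : ∃ U, U = y + M 5 := ⟨_, rfl⟩
  obtain ⟨V, hV⟩ : ∃ V, V = y + M 6 := ⟨_, rfl⟩
  obtain ⟨z0, hz5, hz6⟩ := exists_point (p 5) (p 6)
  have hU0 : U ≠ 0 := by
    intro h
    have := ev (Y + MvPolynomial.C (p 5)) (by rw [map_add, aY, aC, ← hU, h]) ![z0, 0]
    simp [hY] at this
    exact hz5 this
  have hV0 : V ≠ 0 := by
    intro h
    have := ev (Y + MvPolynomial.C (p 6)) (by rw [map_add, aY, aC, ← hV, h]) ![z0, 0]
    simp [hY] at this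
    exact hz6 this
  obtain ⟨A, hA⟩ : ∃ A, A = M 0 / (y + M 5) := ⟨_, rfl⟩
  obtain ⟨B, hB⟩ : ∃ B, B = M 2 / (y + M 6) := ⟨_, rfl⟩
  obtain ⟨r, hr⟩ : ∃ r, r = (2 * y + M 3) * U + (2 * y + M 4) * k * V := ⟨_, rfl⟩
  obtain ⟨e, he⟩ : ∃ e, e = (1 + A + B) * k - B * k ^ 2 - A := ⟨_, rfl⟩
  obtain ⟨f, hf⟩ : ∃ f, f = M 8 - y ^ 2 + M 1 * y + B * U ^ 2 + A * V ^ 2 := ⟨_, rfl⟩
  obtain ⟨g, hg⟩ : ∃ g, g = M 7 - y ^ 2 + A * (2 * y + M 4) * V + B * (2 * y + M 3) * U -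
      (A * V + B * U) ^ 2 := ⟨_, rfl⟩
  have hAU : A * U = M 0 := by rw [hA, ← hU]; field_simp
  have hBV : B * V = M 2 := by rw [hB, ← hV]; field_simp
  obtain ⟨x, hx⟩ := exists_root k U V A B r f g e hk0 he
  -- the polynomials
  set PU : MvPolynomial (Fin 2) ℂ := Y + MvPolynomial.C (p 5) with hPU
  set PV : MvPolynomial (Fin 2) ℂ := Y + MvPolynomial.C (p 6) with hPV
  have aU : MvPolynomial.aeval ![y, k] PU = U := by rw [hPU, map_add, aY, aC, hU]
  have aV : MvPolynomial.aeval ![y, k] PV = V := by rw [hPV, map_add, aY, aC, hV]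
  set Pf : MvPolynomial (Fin 2) ℂ := (MvPolynomial.C (p 8) - Y ^ 2 + MvPolynomial.C (p 1) * Y) *
    PU * PV + MvPolynomial.C (p 2) * PU ^ 3 + MvPolynomial.C (p 0) * PV ^ 3 with hPf
  have aF : MvPolynomial.aeval ![y, k] Pf = f * (U * V) := by
    rw [hPf]
    simp only [map_add, map_mul, map_pow, map_sub, aY, aU, aV, aC]
    rw [hf]
    linear_combination (-(U ^ 3)) * hBV - V ^ 3 * hAU
  have hf0 : f ≠ 0 := by
    intro h
    have h1 := ev Pf (by rw [aF, h, zero_mul])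
    have e0 := h1 ![0, 0]
    have e1 := h1 ![1, 0]
    have e2 := h1 ![-1, 0]
    have e3 := h1 ![2, 0]
    have e4 := h1 ![-2, 0]
    simp [hPf, hPU, hPV, hY] at e0 e1 e2 e3 e4
    have : (24 : ℂ) = 0 := by
      linear_combination (-1 : ℂ) * e3 + 4 * e1 - 6 * e0 + 4 * e2 - e4
    norm_num at this
  set Pe : MvPolynomial (Fin 2) ℂ := (PU * PV + MvPolynomial.C (p 0) * PV +
    MvPolynomial.C (p 2) * PU) * Z - MvPolynomial.C (p 2) * PU * Z ^ 2 -
    MvPolynomial.C (p 0) * PV with hPe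
  have aE : MvPolynomial.aeval ![y, k] Pe = e * (U * V) := by
    rw [hPe]
    simp only [map_add, map_mul, map_pow, map_sub, aZ, aU, aV, aC]
    rw [he]
    linear_combination (-(U * k) + U * k ^ 2) * hBV + (-(V * k) + V) * hAU
  set Pr : MvPolynomial (Fin 2) ℂ := (2 * Y + MvPolynomial.C (p 3)) * PU +
    (2 * Y + MvPolynomial.C (p 4)) * Z * PV with hPr
  have aR : MvPolynomial.aeval ![y, k] Pr = r := by
    rw [hPr, hr]
    simp only [map_add, map_mul, map_ofNat, aZ, aU, aV, aC, aY]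
  set PW : MvPolynomial (Fin 2) ℂ := -Pe * (PU ^ 2 - Z * PV ^ 2) ^ 2 -
    (Pr * (PU * PV) + Pf - Pe * PV ^ 2) * (PU ^ 2 - Z * PV ^ 2) * (Z ^ 2 - Z) +
    Pf * PV ^ 2 * (Z ^ 2 - Z) ^ 2 with hPW
  have aW : MvPolynomial.aeval ![y, k] PW = (-e * (U ^ 2 - k * V ^ 2) ^ 2 -
      (r + f - e * V ^ 2) * (U ^ 2 - k * V ^ 2) * (k ^ 2 - k) +
      f * V ^ 2 * (k ^ 2 - k) ^ 2) * (U * V) := by
    rw [hPW]
    simp only [map_add, map_mul, map_pow, map_sub, map_neg, aZ, aU, aV, aE, aF, aR]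
    ring
  have hW : -e * (U ^ 2 - k * V ^ 2) ^ 2 -
      (r + f - e * V ^ 2) * (U ^ 2 - k * V ^ 2) * (k ^ 2 - k) +
      f * V ^ 2 * (k ^ 2 - k) ^ 2 ≠ 0 := by
    intro h
    have h1 := ev PW (by rw [aW, h, zero_mul]) ![z0, 0]
    simp [hPW, hPe, hPU, hPV, hPf, hPr, hY, hZ] at h1
    tauto
  have hx0 : x ≠ 0 := by
    rintro rfl
    rw [P4, ns, nt, dd] at hx
    have : f ^ 2 * U ^ 2 * V ^ 2 = 0 := by
      rw [← hx]; ring
    simp [hf0, hU0, hV0] at this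
  have hd : dd k U V x ≠ 0 := by
    intro hd
    rw [P4, ns, hd] at hx
    have h1 : k * nt V r f e x ^ 2 = 0 := by
      rw [← hx]; ring
    have h2 : nt V r f e x = 0 := by
      rcases mul_eq_zero.1 h1 with h | h
      · exact absurd h hk0
      · exact pow_eq_zero_iff (two_ne_zero) |>.1 h
    rw [nt] at h2
    rw [dd] at hd
    apply hW
    have h3 : x * (k ^ 2 - k) = -(U ^ 2 - k * V ^ 2) := eq_neg_of_add_eq_zero_left hd
    have h4 : -e * (U ^ 2 - k * V ^ 2) ^ 2 -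
        (r + f - e * V ^ 2) * (U ^ 2 - k * V ^ 2) * (k ^ 2 - k) +
        f * V ^ 2 * (k ^ 2 - k) ^ 2 =
        (r * x + (f - e * x) * (x + V ^ 2)) * (k ^ 2 - k) ^ 2 := by
      have h5 : U ^ 2 - k * V ^ 2 = -(x * (k ^ 2 - k)) := by rw [h3, neg_neg]
      rw [h5]
      ring
    rw [h4, h2, zero_mul]
  have hE := sol k U V A B r f g e x M hx0 hd hU hV hA hB hr he hf hg hx
  obtain ⟨s, hs⟩ : ∃ s, s = ns k U V r f e x / (x * dd k U V x) := ⟨_, rfl⟩
  obtain ⟨t, ht⟩ : ∃ t, t = nt V r f e x / (x * dd k U V x) := ⟨_, rfl⟩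
  rw [← hs, ← ht] at hE
  let S : Set Om := {x, k, y, s, t}
  refine ⟨adjoin ℂ S, inferInstance, inferInstance,
    ⟨x, subset_adjoin ℂ S (by simp [S])⟩, ⟨k, subset_adjoin ℂ S (by simp [S])⟩,
    ⟨y, subset_adjoin ℂ S (by simp [S])⟩, ⟨s, subset_adjoin ℂ S (by simp [S])⟩,
    ⟨t, subset_adjoin ℂ S (by simp [S])⟩, ?_, ?_, ?_⟩
  · refine (AlgHom.algebraicIndependent_iff (adjoin ℂ S).val (RingHom.injective _)).1 ?_
    have e := indep
    rw [← hy, ← hk] at e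
    convert e using 1
    funext i
    fin_cases i <;> rfl
  · rw [← adjoin_top S]
    congr 1
    ext z
    simp [S, Subtype.ext_iff]
  · exact E2_of (adjoin ℂ S).val p _ _ _ _ _ hE

end Vale.Agent.P297.H2.Ex
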